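import Mathlib
import Vale.Agent.Lib.P243.CapMain
import Vale.Agent.Lib.P243.R3.Defs
open MeasureTheory Set Vale.Agent.Lib.P243

/-!
# P243, `r_3 > 1/3`, job J7 (tag `M3l_`): the model bound `l * area (proj K) ≤ 3 * vol K`

`K ⊆ ℝ × (ℝ × ℝ)` is compact convex, the first coordinate is the height, and the chord goes
from `(z0, o)` to `(z0 + l, o)`.  The level set `lev K t` of the chord length contains the
homothetic copy of ratio `1 - t / l` (centre `o`) of the projection of `K`.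
-/

namespace Vale.Agent.Lib.P243.R3

/-- The plane `ℝ × ℝ` carries a Haar measure. -/
theorem M3l_haar_plane : (volume : Measure (ℝ × ℝ)).IsAddHaarMeasure :=
  inferInstanceAs ((volume : Measure ℝ).prod (volume : Measure ℝ)).IsAddHaarMeasure

/-- Area of a homothetic copy of a plane set. -/
theorem M3l_vol_homothety (c : ℝ × ℝ) (r : ℝ) (P : Set (ℝ × ℝ)) :
    volume ((fun q : ℝ × ℝ => c + r • (q - c)) '' P) = ENNReal.ofReal (r ^ 2) * volume P := by
  have := M3l_haar_plane
  have hf : (fun q : ℝ × ℝ => c + r • (q - c)) = ⇑(AffineMap.homothety c r) := by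
    funext q
    rw [AffineMap.homothety_apply]
    simp [add_comm]
  rw [hf, Measure.addHaar_image_homothety]
  have h2 : Module.finrank ℝ (ℝ × ℝ) = 2 := by simp
  rw [h2, abs_of_nonneg (sq_nonneg r)]

/-- The integral of `(1 - t / l) ^ 2` over `(0, l]`. -/
theorem M3l_lintegral_sq {l : ℝ} (hl : 0 < l) :
    ∫⁻ t in Ioc 0 l, ENNReal.ofReal ((1 - t / l) ^ 2) = ENNReal.ofReal (l / 3) := by
  have hl0 : l ≠ 0 := hl.ne'
  have hd : ∀ x : ℝ, HasDerivAt (fun t : ℝ => -(l / 3) * (1 - t / l) ^ 3) ((1 - x / l) ^ 2) x := by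
    intro x
    have h1 : HasDerivAt (fun t : ℝ => 1 - t / l) (-(1 / l)) x := by
      have h := ((hasDerivAt_id x).div_const l).const_sub 1
      simpa using h
    have h2 := (h1.pow 3).const_mul (-(l / 3))
    have he : -(l / 3) * (((3 : ℕ) : ℝ) * (1 - x / l) ^ (3 - 1) * -(1 / l)) = (1 - x / l) ^ 2 := by
      have h3 : ((3 : ℕ) : ℝ) = 3 := by norm_num
      have h4 : (3 - 1 : ℕ) = 2 := rfl
      rw [h3, h4]
      have h5 : -(l / 3) * (3 * (1 - x / l) ^ 2 * -(1 / l)) = (l * (1 / l)) * (1 - x / l) ^ 2 := by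
        ring
      rw [h5, mul_one_div_cancel hl0, one_mul]
    exact h2.congr_deriv he
  have hcont : Continuous (fun t : ℝ => (1 - t / l) ^ 2) := by fun_prop
  have hI : ∫ t in (0 : ℝ)..l, (1 - t / l) ^ 2 = l / 3 := by
    rw [intervalIntegral.integral_eq_sub_of_hasDerivAt (fun x _ => hd x)
      (hcont.intervalIntegrable _ _)]
    simp [div_self hl0]
  have hint : IntegrableOn (fun t : ℝ => (1 - t / l) ^ 2) (Ioc 0 l) :=
    (hcont.integrableOn_Icc).mono_set Ioc_subset_Icc_self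
  rw [← ofReal_integral_eq_lintegral_ofReal hint (ae_of_all _ (fun t => sq_nonneg _)),
    ← intervalIntegral.integral_of_le hl.le, hI]

theorem M3l_len_o {K : Set (ℝ × (ℝ × ℝ))} (hK : IsCompact K) (hc : Convex ℝ K) {z0 l : ℝ}
    {o : ℝ × ℝ} (hl : 0 ≤ l) (h0 : (z0, o) ∈ K) (h1 : (z0 + l, o) ∈ K) :
    l ≤ Cap.len K o := by
  have hsub : Icc z0 (z0 + l) ⊆ Cap.fib K o := by
    intro ζ hζ
    rcases hl.eq_or_lt with hl0 | hlpos
    · have hz : ζ = z0 := by
        have h2 := hζ.2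
        rw [← hl0, add_zero] at h2
        exact le_antisymm h2 hζ.1
      rw [hz]
      exact h0
    · have hθ0 : 0 ≤ (ζ - z0) / l := div_nonneg (sub_nonneg.2 hζ.1) hlpos.le
      have hθ1 : (ζ - z0) / l ≤ 1 := by
        rw [div_le_one hlpos]
        linarith [hζ.2]
      have hmem := hc h0 h1 (sub_nonneg.2 hθ1) hθ0 (by ring)
      have he : (1 - (ζ - z0) / l) • (z0, o) + ((ζ - z0) / l) • (z0 + l, o) = (ζ, o) := by
        refine Prod.ext ?_ ?_
        · simp only [Prod.fst_add, Prod.smul_fst, smul_eq_mul]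
          field_simp
          ring
        · simp only [Prod.snd_add, Prod.smul_snd]
          rw [← add_smul]
          simp
      rw [he] at hmem
      exact hmem
  have hvol : ENNReal.ofReal l ≤ volume (Cap.fib K o) := by
    have h := measure_mono (μ := (volume : Measure ℝ)) hsub
    rw [Real.volume_Icc] at h
    simpa using h
  have h2 := ENNReal.toReal_mono (Cap.fib_fin hK o) hvol
  rw [ENNReal.toReal_ofReal hl] at h2
  exact h2

theorem M3l_lev_ge {K : Set (ℝ × (ℝ × ℝ))} (hK : IsCompact K) (hc : Convex ℝ K) {z0 l : ℝ}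
    {o : ℝ × ℝ} (hl : 0 < l) (h0 : (z0, o) ∈ K) (h1 : (z0 + l, o) ∈ K) {t : ℝ} (ht0 : 0 ≤ t)
    (ht : t ≤ l) :
    (fun q : ℝ × ℝ => o + (1 - t / l) • (q - o)) '' (Prod.snd '' K) ⊆ Cap.lev K t := by
  rintro _ ⟨q, hq, rfl⟩
  have hθ0 : 0 ≤ 1 - t / l := by
    rw [sub_nonneg, div_le_one hl]
    exact ht
  have hθ1 : 1 - t / l ≤ 1 := by
    have : 0 ≤ t / l := div_nonneg ht0 hl.le
    linarith
  have ho : o ∈ Prod.snd '' K := ⟨(z0, o), h0, rfl⟩
  have he : o + (1 - t / l) • (q - o) = (1 - (1 - t / l)) • o + (1 - t / l) • q := by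
    module
  have hconc := Cap.len_concave hK hc ho hq (1 - t / l) hθ0 hθ1
  have hlen := M3l_len_o hK hc hl.le h0 h1
  refine ⟨?_, ?_⟩
  · obtain ⟨k, hk, rfl⟩ := hq
    refine ⟨(1 - (1 - t / l)) • (z0, o) + (1 - t / l) • k,
      hc h0 hk (sub_nonneg.2 hθ1) hθ0 (by ring), ?_⟩
    show ((1 - (1 - t / l)) • (z0, o) + (1 - t / l) • k).2 = o + (1 - t / l) • (k.2 - o)
    rw [he]
    simp
  · show t ≤ Cap.len K (o + (1 - t / l) • (q - o))
    rw [he]
    have ha : (1 - (1 - t / l)) * Cap.len K o = t / l * Cap.len K o := by ring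
    have hb : t ≤ t / l * Cap.len K o := by
      have h3 : t / l * l ≤ t / l * Cap.len K o :=
        mul_le_mul_of_nonneg_left hlen (div_nonneg ht0 hl.le)
      have h4 : t / l * l = t := by field_simp
      linarith
    have hcq : 0 ≤ (1 - t / l) * Cap.len K q := mul_nonneg hθ0 (Cap.len_nonneg q)
    linarith

theorem M3l_model_le {K : Set (ℝ × (ℝ × ℝ))} (hK : IsCompact K) (hc : Convex ℝ K) {z0 l : ℝ}
    {o : ℝ × ℝ} (hl : 0 ≤ l) (h0 : (z0, o) ∈ K) (h1 : (z0 + l, o) ∈ K) :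
    ENNReal.ofReal l * volume (Prod.snd '' K) ≤ 3 * volume K := by
  rcases hl.eq_or_lt with hl0 | hlpos
  · rw [← hl0]
    simp
  have hstep : ENNReal.ofReal (l / 3) * volume (Prod.snd '' K) ≤ volume K := by
    calc ENNReal.ofReal (l / 3) * volume (Prod.snd '' K)
        = (∫⁻ t in Ioc 0 l, ENNReal.ofReal ((1 - t / l) ^ 2)) * volume (Prod.snd '' K) := by
          rw [M3l_lintegral_sq hlpos]
      _ = ∫⁻ t in Ioc 0 l, ENNReal.ofReal ((1 - t / l) ^ 2) * volume (Prod.snd '' K) := by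
          rw [lintegral_mul_const]
          exact ENNReal.measurable_ofReal.comp (by fun_prop)
      _ ≤ ∫⁻ t in Ioc 0 l, volume (Cap.lev K t) := by
          refine setLIntegral_mono' measurableSet_Ioc ?_
          intro t ht
          rw [← M3l_vol_homothety o (1 - t / l) (Prod.snd '' K)]
          exact measure_mono (M3l_lev_ge hK hc hlpos h0 h1 ht.1.le ht.2)
      _ ≤ ∫⁻ t in Ioi (0 : ℝ), volume (Cap.lev K t) :=
          lintegral_mono_set Ioc_subset_Ioi_self
      _ = volume K := (Cap.vol_eq hK).symm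
  have h3 : ENNReal.ofReal l = 3 * ENNReal.ofReal (l / 3) := by
    have h : l = 3 * (l / 3) := by ring
    conv_lhs => rw [h]
    rw [ENNReal.ofReal_mul (by norm_num : (0 : ℝ) ≤ 3)]
    simp
  rw [h3, mul_assoc]
  exact mul_le_mul_right hstep 3

end Vale.Agent.Lib.P243.R3
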